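import Vale.Agent.P354A.Defs

/-!
The chart solutions: background, data, cut-offs, and the exact statements between the blocks
B1, B2, B3, B6, B7, B8. Everything is at the level of components; U = K + w.
-/

open scoped ContDiff
open Set Filter Topology

noncomputable section

namespace Vale.Agent.P354I

open Vale.Agent.P354n (R4)
open Vale.Agent.P354H (X3 pdl sl Sb)
open Vale.Agent.P354C (Ix dfr SmU Full Constr detP)
open Vale.Agent.P354A (Wt U0 Ub cmp Pb Eqn Sol Out isQ gB bY bZ cls odd)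

/-- The square of the Euclidean norm of the angular coordinates of z = (x, y1, y2). -/
def r2 (z : X3) : ℝ := z.2.1 ^ 2 + z.2.2 ^ 2

/-- The background in one chart; it is cut off outside r2 < 16. -/
structure IsBK (k ρ : ℝ) (C : ℕ → ℝ) (K : R4 → Ix → ℝ) : Prop where
  smooth : SmU K univ
  stat : ∀ t x x' y, K (t, x, y) = K (t, x', y)
  bound : ∀ m t, -1 ≤ t → ∀ i,
    Sb m (fun z => K (t, z) i - U0 k i) (C m * √ρ * Real.exp (-k * t / 2))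
  boundQ : ∀ m t, 0 ≤ t → ∀ i, isQ i → Sb m (fun z => K (t, z) i) (C m * √ρ * Real.exp (-k * t))
  full : ∀ p : R4, Real.exp (-k * p.1) < 3 / 2 → r2 p.2 < 16 → Full (K p) (dfr K p)

/-- Small data with support in r2 ≤ 16. -/
structure DatB (s : ℝ) (m : ℕ) (ε : ℝ) (w : X3 → Ix → ℝ) : Prop where
  smooth : ∀ i, ContDiff ℝ ∞ (cmp w i)
  supp : ∀ z, 16 ≤ r2 z → w z = 0
  bound : ∀ i (α : List (Fin 3)), α.length ≤ m → ∀ z,
    |pdl α (cmp w i) z| ≤ ε * (1 + z.1 ^ 2) ^ (-s / 2)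

/-- The cut-off in x: 1 for |x| ≤ n, 0 for |x| ≥ n + 1. -/
def cx (n : ℕ) (x : ℝ) : ℝ := Real.smoothTransition (n + 1 - x) * Real.smoothTransition (n + 1 + x)

/-- The cut-off in the angles: 1 for r2 ≤ 9, 0 for r2 ≥ 16. -/
def cy (z : X3) : ℝ := Real.smoothTransition ((16 - r2 z) / 7)

/-- The datum of the perturbation for the initial values u of the unknowns. -/
def wd (K : R4 → Ix → ℝ) (u : X3 → Ix → ℝ) (z : X3) (i : Ix) : ℝ := cy z * (u z i - K (0, z) i)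

/-- The solutions w n for the data cut off in x, with their bounds. -/
structure Fam (k : ℝ) (a : ℝ → ℝ) (ε δ cb : ℝ) (K : R4 → Ix → ℝ) (w0 : X3 → Ix → ℝ)
    (w : ℕ → R4 → Ix → ℝ) : Prop where
  smooth : ∀ n i, ContDiff ℝ ∞ (cmp (w n) i)
  init : ∀ n z, w n (0, z) = cx n z.1 • w0 z
  eqn : ∀ n (p : R4), -δ ≤ p.1 → Eqn K (w n) p
  back : ∀ n (p : R4), p.1 ∈ Icc (-δ) 0 → ∀ i, |w n p i| ≤ cb
  out : ∀ n (p : R4), 0 ≤ p.1 → Out k a ε 4 (w n) p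
  supp : ∀ n T, ∃ w', Sol K w' T ∧ ∀ p : R4, p.1 < T + 1 → w' p = w n p

/-- SOLVE (from P354A.EXIST). -/
def SOLVE : Prop :=
  ∀ (k s : ℝ) (a A : ℝ → ℝ) (A0 : ℝ) (C : ℕ → ℝ), 0 < k → 1 < s → Wt k a A A0 →
    (∀ y, (1 + y ^ 2) ^ (-s / 2) ≤ a y) → ∃ μ > 0, ∃ cb, ∀ ε' > 0, ∃ ε > 0, ∀ δ ∈ Ioc 0 μ,
      ∀ ρ ∈ Ioc 0 μ, ∀ K, IsBK k ρ C K → ∀ w0, DatB s 9 ε w0 → ∃ w, Fam k a ε' δ cb K w0 w

/-- The solution without cut-off in x. -/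
def glue (w : ℕ → R4 → Ix → ℝ) (p : R4) : Ix → ℝ := w (⌈|p.1| + |p.2.1|⌉₊ + 1) p

/-- GLUE (finite speed 1 in x). -/
def GLUE : Prop :=
  ∀ k a ε δ cb K w0 w, SmU K univ → Fam k a ε δ cb K w0 w →
    ∀ (n : ℕ) (p : R4), -δ < p.1 → |p.1| + |p.2.1| < n → glue w p = w n p

/-- Initial values of the unknowns which solve the constraints. -/
structure IsInit (u : X3 → Ix → ℝ) : Prop where
  smooth : ∀ i, ContDiff ℝ ∞ fun z => u z i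
  pos : ∀ z, 0 < u z Ix.O ∧ detP (u z) ≠ 0
  low : ∃ c0 > 0, ∀ z, r2 z ≤ 16 → c0 ≤ u z Ix.O ∧ c0 ≤ |detP (u z)|
  constr : ∀ (U : R4 → Ix → ℝ) (z : X3), (∀ i, ContDiffAt ℝ ∞ (fun p => U p i) (0, z)) →
    (∀ᶠ z' in 𝓝 z, U (0, z') = u z') → Constr (U (0, z)) (dfr U (0, z))

/-- The solution U = K + w in one chart. -/
structure IsCh (k : ℝ) (a : ℝ → ℝ) (ε η δ cb : ℝ) (u : X3 → Ix → ℝ) (U : R4 → Ix → ℝ) : Prop where
  smooth : SmU U {p | -δ < p.1}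
  init : ∀ z, r2 z ≤ 9 → U (0, z) = u z
  full : ∀ p : R4, -δ < p.1 → r2 p.2 < 25 / 4 →
    Full (U p) (dfr U p) ∧ 0 < U p Ix.O ∧ detP (U p) ≠ 0
  Y : ∀ p : R4, 0 ≤ p.1 → ∀ i, Pb 5 (Ub k U i) p (ε * bY k a (cls i) p.1 p.2.1 + gB k η i p.1)
  Z : ∀ p : R4, 0 ≤ p.1 → ∀ i, odd i →
    Pb 4 (Ub k U i) p (ε * bZ k a i p.1 p.2.1 + gB k η i p.1)
  back : ∀ p : R4, p.1 ∈ Ioc (-δ) 0 → ∀ i, |U p i| ≤ cb

/-- FULL (from GLUE, PROPAG, the transport equations of O and det P, and the small angular travel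
of causal curves). -/
def FULL : Prop :=
  ∀ (k : ℝ) (a A : ℝ → ℝ) (A0 cb : ℝ) (C : ℕ → ℝ), 0 < k → Wt k a A A0 →
    ∃ μ > 0, ∃ cb', ∀ ρ ∈ Ioc 0 μ, ∀ ε ∈ Ioc 0 μ, ∀ δ ∈ Ioc 0 μ, ∀ K u w, IsBK k ρ C K → IsInit u →
      Fam k a ε δ cb K (wd K u) w → IsCh k a ε (C 5 * √ρ) δ cb' u (K + glue w)

end Vale.Agent.P354I
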