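import Vale.Agent.P354.H251.DefsN2

open scoped ContDiff
open MeasureTheory Set Filter Topology

namespace Vale.Agent.P354I

open Vale.Agent.P354n (R4 Spc On tgt co inv IsSmooth IsC0W1 IsSpacetime IsFutureCurve
  IsFutureExtension IsConn IsVacuum IsIsom)

/-- Euclidean 3-space. The cylinder R x S^2 is X without the origin: y = exp(t) w, with
t = log |y| in R and w in S^2. -/
abbrev X : Type := EuclideanSpace ℝ (Fin 3)

/-- Data on the cylinder: the components h y i j and K y i j of two tensors at the point y. -/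
structure Dat where
  h : X → Matrix (Fin 3) (Fin 3) ℝ
  K : X → Matrix (Fin 3) (Fin 3) ℝ

/-- The coordinate vectors and the derivative in the direction of the i-th one. -/
noncomputable def ee (i : Fin 3) : X := EuclideanSpace.single i 1
noncomputable def pd {V : Type} [NormedAddCommGroup V] [NormedSpace ℝ V] (i : Fin 3) (f : X → V)
    (y : X) : V := fderiv ℝ f y (ee i)

/-- The Christoffel symbols of h, upper index k. -/
noncomputable def Dat.chr (d : Dat) (k i j : Fin 3) (y : X) : ℝ :=
  ∑ l, (d.h y)⁻¹ k l * (pd i (fun z => d.h z j l) y + pd j (fun z => d.h z i l) y -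
    pd l (fun z => d.h z i j) y) / 2

/-- The Ricci curvature of h. -/
noncomputable def Dat.ric (d : Dat) (i j : Fin 3) (y : X) : ℝ :=
  ∑ k, (pd k (d.chr k i j) y - pd j (d.chr k k i) y +
    ∑ l, (d.chr k k l y * d.chr l i j y - d.chr k j l y * d.chr l k i y))

/-- The scalar curvature of h, the trace of K, the square of the norm of K, and the divergence
of K. -/
noncomputable def Dat.scal (d : Dat) (y : X) : ℝ := ∑ i, ∑ j, (d.h y)⁻¹ i j * d.ric i j y
noncomputable def Dat.trK (d : Dat) (y : X) : ℝ := ∑ i, ∑ j, (d.h y)⁻¹ i j * d.K y i j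
noncomputable def Dat.sqK (d : Dat) (y : X) : ℝ :=
  ∑ i, ∑ j, ∑ k, ∑ l, (d.h y)⁻¹ i k * (d.h y)⁻¹ j l * d.K y i j * d.K y k l
noncomputable def Dat.divK (d : Dat) (j : Fin 3) (y : X) : ℝ :=
  ∑ i, ∑ k, (d.h y)⁻¹ i k * (pd i (fun z => d.K z k j) y -
    ∑ l, (d.chr l i k y * d.K y l j + d.chr l i j y * d.K y k l))

/-- The radii of the inner and of the outer horizon of Kerr with mass M and rotation a. -/
noncomputable def rm (M a : ℝ) : ℝ := M - √(M ^ 2 - a ^ 2)
noncomputable def rp (M a : ℝ) : ℝ := M + √(M ^ 2 - a ^ 2)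

/-- For y = exp(t) (sin θ cos ψ, sin θ sin ψ, cos θ): the forms dt and sin^2 θ dψ and the round
metric dθ^2 + sin^2 θ dψ^2 at y, and the function r^2 + a^2 cos^2 θ. -/
noncomputable def dT (y v : X) : ℝ := inner ℝ y v / ‖y‖ ^ 2
noncomputable def dP (y v : X) : ℝ := (y 0 * v 1 - y 1 * v 0) / ‖y‖ ^ 2
noncomputable def rnd (y v w : X) : ℝ := inner ℝ v w / ‖y‖ ^ 2 - dT y v * dT y w
noncomputable def Sg (a r : ℝ) (y : X) : ℝ := r ^ 2 + a ^ 2 * (y 2 ^ 2 / ‖y‖ ^ 2)

/-- The Kerr metric on vectors tangent to r = const, in Boyer-Lindquist coordinates (t, θ, ψ):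
-dt^2 + (2 M r / Sg) (dt - a sin^2 θ dψ)^2 + Sg (dθ^2 + sin^2 θ dψ^2) + a^2 sin^4 θ dψ^2. The
spacetime metric is this plus Sg dr^2 / (r^2 - 2 M r + a^2). -/
noncomputable def bl (M a r : ℝ) (y v w : X) : ℝ :=
  -(dT y v * dT y w) + 2 * M * r / Sg a r y * ((dT y v - a * dP y v) * (dT y w - a * dP y w)) +
    Sg a r y * rnd y v w + a ^ 2 * (dP y v * dP y w)

/-- The differential of the change of angle φ = ψ + om t: v + om dt(v) times the rotation
field. -/
noncomputable def tw (om : ℝ) (y v : X) : X := v + (om * dT y v) • !₂[-y 1, y 0, 0]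

/-- The same tensor in the coordinates (t, θ, ψ = φ - om t) which rotate with the inner horizon,
om = a / (rm^2 + a^2). -/
noncomputable def kh (M a r : ℝ) (y : X) (i j : Fin 3) : ℝ :=
  bl M a r y (tw (a / (rm M a ^ 2 + a ^ 2)) y (ee i)) (tw (a / (rm M a ^ 2 + a ^ 2)) y (ee j))

/-- The data induced by Kerr on the hypersurface r = r0 of the black hole interior
rm < r < rp: K is half the derivative of the metric along the future unit normal, which is
-sqrt (-(r^2 - 2 M r + a^2) / Sg) d/dr. -/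
noncomputable def kerr (M a r0 : ℝ) : Dat where
  h y := Matrix.of fun i j => kh M a r0 y i j
  K y := Matrix.of fun i j =>
    -√(-(r0 ^ 2 - 2 * M * r0 + a ^ 2) / Sg a r0 y) / 2 * deriv (fun r => kh M a r y i j) r0

/-- The sum over j ≤ m of the suprema over the cylinder of (1 + t^2)^(s/2) |y|^(2+j) times the
size of the j-th derivative of F. For the components F of a 2-tensor, the factor |y|^(2+j) gives
the size with respect to the metric dt^2 + round metric = |dy|^2 / |y|^2. -/
noncomputable def wn (s : ℝ) (m : ℕ) (F : X → ℝ) : ENNReal :=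
  ∑ j ∈ Finset.range (m + 1), ⨆ y : X, ⨆ _ : y ≠ 0,
    ENNReal.ofReal (√(1 + Real.log ‖y‖ ^ 2) ^ s * ‖y‖ ^ (2 + j) * ‖iteratedFDeriv ℝ j F y‖)

/-- The seminorm p_m of the difference of two data. -/
noncomputable def pm (s : ℝ) (m : ℕ) (d d' : Dat) : ENNReal :=
  ∑ i, ∑ j, (wn s m (fun y => d.h y i j - d'.h y i j) + wn s m (fun y => d.K y i j - d'.K y i j))

/-- Smooth data with Riemannian h and symmetric K, all p_m of the difference to the Kerr data
finite (so h is complete), which solve the vacuum constraint equations. -/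
structure IsData (M a r0 s : ℝ) (d : Dat) : Prop where
  smooth : ∀ i j, ContDiffOn ℝ ∞ (fun y => d.h y i j) {0}ᶜ ∧
    ContDiffOn ℝ ∞ (fun y => d.K y i j) {0}ᶜ
  pos : ∀ y ≠ 0, (d.h y).PosDef ∧ (d.K y).IsSymm
  finite : ∀ m, pm s m d (kerr M a r0) < ⊤
  hamilton : ∀ y ≠ 0, d.scal y + d.trK y ^ 2 - d.sqK y = 0
  momentum : ∀ y ≠ 0, ∀ j, d.divK j y - pd j d.trK y = 0

/-- The space of data. -/
def Dset (M a r0 s : ℝ) : Type := {d : Dat // IsData M a r0 s d}

/-- The topology of all p_m of differences. -/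
instance (M a r0 s : ℝ) : TopologicalSpace (Dset M a r0 s) :=
  TopologicalSpace.generateFrom
    {S | ∃ (d : Dset M a r0 s) (m : ℕ) (ε : ENNReal), S = {d' | pm s m d'.1 d.1 < ε}}

/-- N is a globally hyperbolic vacuum development of d: a smooth connected second countable
vacuum spacetime, j embeds the cylinder onto a Cauchy hypersurface, and the metric and the second
fundamental form for the future unit normal n induced by j are h and K. J is j in a chart. -/
structure IsDev (d : Dat) (N : Spc) (j : X → N.pt) : Prop where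
  spacetime : IsSpacetime IsSmooth N
  connected : ConnectedSpace N.pt
  countable : SecondCountableTopology N.pt
  vacuum : IsVacuum N
  embedding : IsEmbedding (fun y : ({0}ᶜ : Set X) => j y)
  cauchy : ∀ c, IsFutureCurve N 0 (Ioo 0 1) c →
    (∀ x, ¬ Tendsto c (𝓝[<] 1) (𝓝 x) ∧ ¬ Tendsto c (𝓝[>] 0) (𝓝 x)) →
    ∃! t, t ∈ Ioo (0 : ℝ) 1 ∧ c t ∈ j '' {0}ᶜ
  induced : ∀ y ≠ 0, ∃ e J G n, J = (fun z => co e (j z)) ∧ On e (j y) ∧ ContDiffAt ℝ ∞ J y ∧
    IsConn (N.g e) G (J y) ∧ N.g e (J y) n n = -1 ∧ N.g e (J y) n (N.X e (J y)) < 0 ∧ ∀ i k,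
      N.g e (J y) (pd i J y) n = 0 ∧ N.g e (J y) (pd i J y) (pd k J y) = d.h y i k ∧
      -N.g e (J y) n (pd i (pd k J) y + G (J y) (pd i J y) (pd k J y)) = d.K y i k

/-- N has no future extension of class C^0 and W^{1,2}_loc. -/
def NoExt (N : Spc) : Prop := ∀ N' ι c, ¬ IsFutureExtension (IsC0W1 2) N N' ι c

/-- The data d have a development N such that no development N' of d which contains N (by an
open isometric embedding that respects the embeddings of the cylinder), in particular neither N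
itself nor the maximal development, has a future extension of class C^0 and W^{1,2}_loc. -/
def Good (d : Dat) : Prop :=
  ∃ N j, IsDev d N j ∧ NoExt N ∧ ∀ N' j' (κ : N.pt → N'.pt), IsDev d N' j' → IsOpenEmbedding κ →
    IsIsom κ → (∀ y ≠ 0, κ (j y) = j' y) → NoExt N'

end Vale.Agent.P354I
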