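import Vale.Agent.P354I.Core
import Vale.Agent.P354P.Iface
import Vale.Agent.P354J.Defs
import Vale.Agent.P354L.Defs

/-!
The top level statements between the blocks.
-/

open scoped ContDiff
open MeasureTheory Set Filter Topology

noncomputable section

namespace Vale.Agent.P354I

open Vale.Agent.P354n (R4)
open Vale.Agent.P354H (X3)
open Vale.Agent.P354C (Ix)
open Vale.Agent.P354A (Wt)
open Vale.Agent.P354P (coef cfu sp jX uu vv uv Ch)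
open Vale.Agent.P354J (Ud PDy)
open Vale.Agent.P354L (BU Sat Base Ana sw)
open Vale.Agent.P354R (kap)

/-- The statement of the theorem. -/
def MAIN : Prop :=
  ∀ M a s : ℝ, a ≠ 0 → |a| < M → 1 < s → ∃ δ > 0, ∀ r0 ∈ Ioo (rm M a) (rm M a + δ),
    r0 < rp M a ∧ ∃ U : Set (Dset M a r0 s), IsOpen U ∧ (∃ d ∈ U, d.1 = kerr M a r0) ∧
      IsMeagre {d : U | ¬ Good d.1.1} ∧ Dense {d : U | Good d.1.1}

/-- The Kerr data are smooth, h is positive, K is symmetric. -/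
def KPD : Prop := ∀ M a r0 : ℝ, a ≠ 0 → |a| < M → rm M a < r0 → r0 < rp M a → PDy (kerr M a r0)

/-- The Kerr background in both charts; r0 = rm + ρ. -/
structure IsKB (M a ρ : ℝ) (C : ℕ → ℝ) (K : Bool → R4 → Ix → ℝ) : Prop where
  lt : rm M a + ρ < rp M a
  bk : ∀ σ, IsBK (kap M a) ρ C (K σ)
  init : ∀ σ z, r2 z < 16 → K σ (0, z) = Ud (kerr M a (rm M a + ρ)) σ z
  data : ∀ s, IsData M a (rm M a + ρ) s (kerr M a (rm M a + ρ))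

/-- B5b. -/
def BK : Prop :=
  ∀ M a : ℝ, a ≠ 0 → |a| < M → ∃ μ > 0, ∃ C, ∀ ρ ∈ Ioo 0 μ, ∃ K, IsKB M a ρ C K

/-- NEAR (from SL1, SL2, DSL, LIP, KER): data near Kerr give small chart data. -/
def NEAR : Prop :=
  ∀ (M a s ρ : ℝ) C K (m : ℕ), a ≠ 0 → |a| < M → 1 < s → 0 < ρ → IsKB M a ρ C K → ∀ ε > 0,
    ∃ m', ∃ η > 0, ∀ d, IsData M a (rm M a + ρ) s d →
      pm s m' d (kerr M a (rm M a + ρ)) < ENNReal.ofReal η → ∀ σ,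
        IsInit (Ud d σ) ∧ DatB s m ε (wd (K σ) (Ud d σ))

/-- The angular domains. -/
def Th0 : Set (ℝ × ℝ) := {y | y.1 ^ 2 + y.2 ^ 2 ≤ 1}
def Th : Set (ℝ × ℝ) := {y | y.1 ^ 2 + y.2 ^ 2 < 2}

/-- B6: the spacetime of the two chart solutions. -/
def DEVEL : Prop :=
  ∀ (k : ℝ) (a A : ℝ → ℝ) (A0 cb : ℝ), 0 < k → Wt k a A A0 → ∃ μ > 0, ∀ ε ∈ Icc 0 μ,
    ∀ η ∈ Icc 0 μ, ∀ δ ∈ Ioc 0 μ, ∀ (d : Dat) (U : Bool → R4 → Ix → ℝ), PDy d →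
      (∀ σ, IsCh k a ε η δ cb (Ud d σ) (U σ)) →
      IsDev d (sp δ (coef U)) (jX δ) ∧ Sat (sp δ (coef U)) ∧
        Base (sp δ (coef U)) (uu δ) (vv δ) (Ch.id δ) (coef U) (2 * δ) Th0 Th

/-- Lower bounds for Psi0 at v = ∞ and for Psi4 at u = ∞. -/
def BlowR (k : ℝ) (U : R4 → Ix → ℝ) : Prop :=
  BU (k / 32) Th fun x => |U (uv.symm x) Ix.a1| + |U (uv.symm x) Ix.a2|
def BlowL (k : ℝ) (U : R4 → Ix → ℝ) : Prop :=
  BU (k / 32) Th fun x => |U (uv.symm (sw x)) Ix.ab1| + |U (uv.symm (sw x)) Ix.ab2|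

/-- From the frame to the metric: the input of B7. -/
def ANA : Prop :=
  ∀ (k : ℝ) (a A : ℝ → ℝ) (A0 : ℝ), 0 < k → Wt k a A A0 → ∃ κ, P354L.Wt (k / 2) κ ∧
    ∀ (ε η δ cb : ℝ) u U, 0 < δ → IsInit u → IsCh k a ε η δ cb u U → BlowR k U → BlowL k U →
      ∃ al be : R4 → R4, Ana (2 * δ) (k / 2) κ Th (fun i y => cfu (U (uv.symm y)) i) al be

/-- All solutions for the data d blow up. -/
def Blow (k : ℝ) (a : ℝ → ℝ) (ε δ cb : ℝ) (K : Bool → R4 → Ix → ℝ) (d : Dat) : Prop :=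
  ∀ σ w, Fam k a ε δ cb (K σ) (wd (K σ) (Ud d σ)) w →
    BlowR k (K σ + glue w) ∧ BlowL k (K σ + glue w)

/-- B8, B9, B10. -/
def GEN : Prop :=
  ∀ (M a s : ℝ) (w A : ℝ → ℝ) (A0 c : ℝ) (C : ℕ → ℝ), a ≠ 0 → |a| < M → 1 < s →
    Wt (kap M a) w A A0 → ContDiff ℝ ∞ w →
    (∀ y, (1 + y ^ 2) ^ (-s / 2) ≤ w y ∧ w y ≤ c * (1 + y ^ 2) ^ (-s / 2)) →
    ∃ μ > 0, ∀ ρ ∈ Ioo 0 μ, ∀ K, IsKB M a ρ C K → ∀ ε ∈ Ioc 0 μ, ∀ δ cb, 0 < δ →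
      ∃ m, ∃ η > 0, ∀ O : Set (Dset M a (rm M a + ρ) s), IsOpen O →
        (∀ d ∈ O, pm s m d.1 (kerr M a (rm M a + ρ)) < ENNReal.ofReal η) →
        (∀ d ∈ O, ∀ σ, ∃ W, Fam (kap M a) w ε δ cb (K σ) (wd (K σ) (Ud d.1 σ)) W) →
        IsMeagre {d : O | ¬ Blow (kap M a) w ε δ cb K d.1.1}

/-- The space of data is a Baire space. -/
def BAIRE : Prop :=
  ∀ M a r0 s : ℝ, a ≠ 0 → |a| < M → 1 < s → rm M a < r0 → r0 < rp M a →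
    BaireSpace (Dset M a r0 s)

end Vale.Agent.P354I
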