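import Vale.Agent.P354I.Defs2
import Vale.Agent.P354I.Iface
import Vale.Agent.P354K.Top
import Vale.Agent.P354T.Baire
import Vale.Agent.P354AS.Defs

/-!
Phase 2: any slice between the horizons, different Kerr parameters at the two ends.
Definitions and exact statements of the blocks.
-/

open scoped ContDiff
open MeasureTheory Set Filter Topology Matrix

noncomputable section

namespace Vale.Agent.P354I

open Vale.Agent.P354n (R4 Spc)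
open Vale.Agent.P354H (X3 pdl sl Sb)
open Vale.Agent.P354C (Ix res dfr SmU Full detP cN cL met)
open Vale.Agent.P354A (Wt U0 cmp Out isQ isW)
open Vale.Agent.P354AS (EqnS SolS)
open Vale.Agent.P354P (coef sp Glob rr flip)
open Vale.Agent.P354J (Ud PDy pb Bd Tm wt)
open Vale.Agent.P354T (UP DSm)
open Vale.Agent.P354K (cube Wit jet piOf)
open Vale.Agent.P354D (sgn IsKick)
open Vale.Agent.P354R (kap)

/-- The statement of the theorem of phase 2. -/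
def MAIN2 : Prop :=
  ∀ M a r0 s : ℝ, a ≠ 0 → |a| < M → rm M a < r0 → r0 < rp M a → 1 < s →
    ∃ (m : ℕ) (η ε : ℝ), 0 < η ∧ 0 < ε ∧ ∀ p q : End, p.Near M a r0 ε → q.Near M a r0 ε →
      IsOpen (Bl (mix p.dat q.dat) s m η) ∧ (Bl (mix p.dat q.dat) s m η).Nonempty ∧
      IsMeagre {d : Bl (mix p.dat q.dat) s m η | ¬ Good d.1.1} ∧
      Dense {d : Bl (mix p.dat q.dat) s m η | Good d.1.1}

/-! ### Data -/

/-- The constraint equations. -/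
def Con (d : Dat) : Prop :=
  ∀ y ≠ 0, d.scal y + d.trK y ^ 2 - d.sqK y = 0 ∧ ∀ j, d.divK j y - pd j d.trK y = 0

/-- Equality on the cylinder. -/
def Eqv (d d' : Dat) : Prop := ∀ y ≠ 0, d.h y = d'.h y ∧ d.K y = d'.K y

/-- Bounds without weight up to the order m, and uniform positivity. -/
def Geo (c B : ℝ) (m : ℕ) (d : Dat) : Prop :=
  PDy d ∧ UP d c ∧ ∀ i j, wn 0 m (fun y => d.h y i j) ≤ ENNReal.ofReal B ∧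
    wn 0 m (fun y => d.K y i j) ≤ ENNReal.ofReal B

/-- Stationary data. -/
def Sta (k : Dat) : Prop :=
  PDy k ∧ ∀ σ x y, pb σ k.h (x, y) = pb σ k.h (0, y) ∧ pb σ k.K (x, y) = pb σ k.K (0, y)

/-- Data with witnesses for the deformation of the constraints. -/
def Wi (k : Dat) : Prop :=
  ∀ σ b : Bool, ∃ (K : Set X3) (T : X3 → P354K.M3) (χ : X3 → ℝ), IsCompact K ∧ K ⊆ cube ∧
    (∀ y ∈ K, 1 < sgn b * y.1) ∧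
    Wit P354H.pd K (jet (pb σ k.h) fun z => piOf (pb σ k.h z) (pb σ k.K z)) (jet 0 T) χ

/-- MIX: bounded geometry of stationary data and of the interpolation. -/
def MIX : Prop :=
  (∀ k m, Sta k → ∃ c > 0, ∃ B, Geo c B m k) ∧
  (∀ m B, ∃ B', ∀ c k k', Geo c B m k → Geo c B m k' → Geo c B' m (mix k k')) ∧
  (∀ c B m, 0 < c → ∃ η > 0, ∀ s k d, 0 ≤ s → Geo c B m k → PDy d →
    pm s m d k ≤ ENNReal.ofReal η → Geo (c / 2) (B + 1) m d) ∧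
  ∀ k k' σ (z : X3), pb σ (mix k k').h z = Real.smoothTransition z.1 • pb σ k.h z +
      (1 - Real.smoothTransition z.1) • pb σ k'.h z ∧
    pb σ (mix k k').K z = Real.smoothTransition z.1 • pb σ k.K z +
      (1 - Real.smoothTransition z.1) • pb σ k'.K z

/-- TOP2: the topology of DS k s. -/
def TOP2 : Prop :=
  ∀ (k : Dat) (s c : ℝ), 0 < s → 0 < c → PDy k → UP k c →
    BaireSpace (DS k s) ∧ FirstCountableTopology (DS k s) ∧ (∀ m η, IsOpen (Bl k s m η)) ∧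
    (∀ (d : DS k s) (S : Set (DS k s)), S ∈ 𝓝 d ↔ ∃ (m : ℕ) (η : ℝ), 0 < η ∧
      ∀ d' : DS k s, pm s m d'.1 d.1 ≤ ENNReal.ofReal η → d' ∈ S) ∧
    (∀ d : DS k s, ∃ c' > 0, UP d.1 c') ∧
    ∀ U : Set (DS k s), IsOpen U → ∀ P : U → Prop, IsMeagre {d : U | ¬ P d} → Dense {d : U | P d}

/-- LIP2: Lipschitz dependence of the initial values, uniform on bounded geometry. -/
def LIP2 : Prop :=
  ∀ (c B R : ℝ) (m : ℕ), 0 < c → ∃ C c0 : ℝ, 0 ≤ C ∧ 0 < c0 ∧ ∀ (s ε : ℝ) (d d' : Dat), 0 ≤ s →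
    0 ≤ ε → Geo c B (m + 2) d → Geo c B (m + 2) d' → pm s (m + 2) d d' ≤ ENNReal.ofReal ε →
    ∀ σ (z : X3), ‖z.2‖ ≤ R → c0 ≤ Ud d σ z Ix.O ∧ c0 ≤ detP (Ud d σ z) ∧ ∀ i,
      Tm m C (C * ε * wt s z) z (fun y => Ud d σ y i) (fun y => Ud d' σ y i)

/-- PBI: the seminorms are bounded by the derivatives of the pull backs. -/
def PBI : Prop :=
  ∀ m : ℕ, ∃ C : ℝ, 0 ≤ C ∧ ∀ (s ε : ℝ) (F : X → P354J.M3), 0 ≤ ε →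
    (∀ i j, ContDiffOn ℝ ∞ (fun y => F y i j) {0}ᶜ) →
    (∀ σ (z : X3), r2 z ≤ 2 → ∀ a b, Bd m (fun w => pb σ F w a b) z (ε * wt s z)) →
    ∀ i j, wn s m (fun y => F y i j) ≤ ENNReal.ofReal (C * ε)

/-! ### Change of coordinates on the cylinder -/

/-- The pull back of data. -/
def Dat.pull (d : Dat) (ψ : X → X) : Dat where
  h y := Matrix.of fun i j => ∑ k, ∑ l, pd i ψ y k * pd j ψ y l * d.h (ψ y) k l
  K y := Matrix.of fun i j => ∑ k, ∑ l, pd i ψ y k * pd j ψ y l * d.K (ψ y) k l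

/-- A smooth self map of the cylinder with bounded geometry. -/
structure Cy1 (B : ℕ → ℝ) (ψ : X → X) : Prop where
  sm : ContDiffOn ℝ ∞ ψ {0}ᶜ
  ne : ∀ y ≠ 0, ψ y ≠ 0
  bd : ∀ j, ∀ y ≠ 0, ‖y‖ ^ j * ‖iteratedFDeriv ℝ j ψ y‖ ≤ B j * ‖ψ y‖
  log : ∀ y ≠ 0, 1 + Real.log ‖y‖ ^ 2 ≤ B 0 * (1 + Real.log ‖ψ y‖ ^ 2)

/-- A diffeomorphism of the cylinder with bounded geometry. -/
structure Cyl (B : ℕ → ℝ) (ψ ψ' : X → X) : Prop where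
  l : Cy1 B ψ
  r : Cy1 B ψ'
  inv : ∀ y ≠ 0, ψ (ψ' y) = y ∧ ψ' (ψ y) = y

/-- PULL. -/
def PULL : Prop :=
  (∀ B ψ ψ' d, Cyl B ψ ψ' → PDy d → PDy (d.pull ψ) ∧ (Con d → Con (d.pull ψ)) ∧
    Eqv ((d.pull ψ).pull ψ') d ∧
    ∀ (N : Spc) (j : X → N.pt), IsDev (d.pull ψ) N j → IsDev d N (j ∘ ψ')) ∧
  (∀ B (s : ℝ) (m : ℕ), 0 ≤ s → ∃ C : ℝ, 0 ≤ C ∧ ∀ ψ d d', Cy1 B ψ → DSm d → DSm d' →
    pm s m (d.pull ψ) (d'.pull ψ) ≤ ENNReal.ofReal C * pm s m d d') ∧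
  ∀ B c, 0 < c → ∃ c' > 0, ∀ ψ ψ' d, Cyl B ψ ψ' → UP d c → UP (d.pull ψ) c'

/-- The dilation t ↦ c t. -/
def dil (c : ℝ) (y : X) : X := ‖y‖ ^ (c - 1) • y

/-! ### The Kerr family -/

/-- The parameters (M, a, r). -/
abbrev P3 : Type := ℝ × ℝ × ℝ

/-- K p t σ is the Kerr solution with parameters p in the double null gauge of the slice r = p.2.2,
rescaled to the rate k, from the time t on; kd p t is the data on the slice of the time t. -/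
structure IsKF (p0 : P3) (k ε0 δ1 : ℝ) (C : ℕ → ℝ) (K : P3 → ℝ → Bool → R4 → Ix → ℝ)
    (kd : P3 → ℝ → Dat) : Prop where
  pos : 0 < k ∧ 0 < ε0 ∧ 0 < δ1 ∧ δ1 ≤ 1
  smooth : ∀ p ∈ Metric.ball p0 ε0, ∀ t ≥ 0, ∀ σ, SmU (K p t σ) univ ∧
    (∀ τ x x' y, K p t σ (τ, x, y) = K p t σ (τ, x', y)) ∧
    ∀ z : R4, 25 ≤ r2 z.2 → K p t σ z = U0 k
  bound : ∀ p ∈ Metric.ball p0 ε0, ∀ t ≥ 0, ∀ σ m τ, -1 ≤ τ → ∀ i,
    Sb m (fun z => K p t σ (τ, z) i - U0 k i) (C m * Real.exp (-k * (t + τ) / 2)) ∧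
    (isW i → Sb m (fun z => K p t σ (τ, z) i) (C m * Real.exp (-k * (t + τ))))
  full : ∀ p ∈ Metric.ball p0 ε0, ∀ t ≥ 0, ∀ σ (z : R4), -δ1 < z.1 → r2 z.2 < 16 →
    Full (K p t σ z) (dfr (K p t σ) z) ∧ 0 < K p t σ z Ix.O ∧ detP (K p t σ z) ≠ 0
  cont : ∀ m, ∀ η > 0, ∃ ε > 0, ∀ p ∈ Metric.ball p0 ε, ∀ t ≥ 0, ∀ σ τ, -1 ≤ τ → ∀ i,
    Sb m (fun z => K p t σ (τ, z) i - K p0 t σ (τ, z) i) (η * Real.exp (-k * τ / 2)) ∧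
    (isW i → Sb m (fun z => K p t σ (τ, z) i - K p0 t σ (τ, z) i) (η * Real.exp (-k * τ)))
  sta : ∀ p ∈ Metric.ball p0 ε0, ∀ t ≥ 0, Sta (kd p t) ∧ Con (kd p t)
  init : ∀ p ∈ Metric.ball p0 ε0, ∀ t ≥ 0, ∀ σ z, r2 z < 16 → K p t σ (0, z) = Ud (kd p t) σ z
  ind : ∀ p ∈ Metric.ball p0 ε0, ∀ t ≥ 0, ∀ t' ≥ 0, -δ1 < t' - t → ∀ σ z, r2 z < 16 →
    P354J.Ind (K p t σ (t' - t, z)) (pb σ (kd p t').h z) (pb σ (kd p t').K z)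
  geo : ∀ T m, ∃ c > 0, ∃ B, ∀ p ∈ Metric.ball p0 ε0, ∀ t ∈ Icc 0 T, Geo c B m (kd p t)
  kcont : ∀ T m, ∀ η > 0, ∃ ε > 0, ∀ p ∈ Metric.ball p0 ε, ∀ t ∈ Icc 0 T,
    pm 0 m (kd p t) (kd p0 t) ≤ ENNReal.ofReal η
  start : ∀ p ∈ Metric.ball p0 ε0,
    Eqv (kd p 0) ((kerr p.1 p.2.1 p.2.2).pull (dil (k / kap p.1 p.2.1)))
  wit : ∃ T1, ∀ p ∈ Metric.ball p0 ε0, ∀ t ≥ T1, Wi (kd p t)

/-- BK2. -/
def BK2 : Prop :=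
  ∀ M a r0 : ℝ, a ≠ 0 → |a| < M → rm M a < r0 → r0 < rp M a →
    ∃ ε0 δ1 C K kd, IsKF (M, a, r0) (kap M a) ε0 δ1 C K kd

/-- START: the change of coordinates which removes the rotations and equalises the rates. -/
def START : Prop :=
  ∀ M a r0 s ε0 δ1 C K kd, a ≠ 0 → |a| < M → rm M a < r0 → r0 < rp M a → 0 ≤ s →
    IsKF (M, a, r0) (kap M a) ε0 δ1 C K kd → ∃ B, ∃ c > 0, ∀ m, ∀ η > 0, ∃ ε > 0, ∀ p q : End,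
      p.Near M a r0 ε → q.Near M a r0 ε → PDy (mix p.dat q.dat) ∧ UP (mix p.dat q.dat) c ∧
      ∃ ψ ψ', Cyl B ψ ψ' ∧
        (∀ m', pm s m' ((mix p.dat q.dat).pull ψ)
          (mix (kd (p.M, p.a, p.r) 0) (kd (q.M, q.a, q.r) 0)) < ⊤) ∧
        pm s m ((mix p.dat q.dat).pull ψ) (mix (kd (p.M, p.a, p.r) 0) (kd (q.M, q.a, q.r) 0)) ≤
          ENNReal.ofReal η

/-! ### The interpolated background and its source -/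

/-- The weight of the right end in the unknown i. -/
def psi (i : Ix) (p : R4) : ℝ :=
  Real.smoothTransition (if cL i = 0 then p.2.1 + p.1 else if cN i = 0 then p.2.1 - p.1 else p.2.1)

/-- The interpolation and the source. -/
def KI (K K' : R4 → Ix → ℝ) (p : R4) (i : Ix) : ℝ := psi i p * K p i + (1 - psi i p) * K' p i
def FI (K K' : R4 → Ix → ℝ) (p : R4) (i : Ix) : ℝ :=
  res (KI K K' p) (dfr (KI K K') p) i - psi i p * res (K p) (dfr K p) i -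
    (1 - psi i p) * res (K' p) (dfr K' p) i

/-- A background K with a source f of size ε up to the order n. -/
structure IsBS (k ρ δ1 ε : ℝ) (n : ℕ) (C : ℕ → ℝ) (K f : R4 → Ix → ℝ) : Prop where
  smooth : SmU K univ ∧ SmU f univ
  bound : ∀ m t, -1 ≤ t → ∀ i,
    Sb m (fun z => K (t, z) i - U0 k i) (C m * √ρ * Real.exp (-k * t / 2))
  boundQ : ∀ m t, 0 ≤ t → ∀ i, isQ i → Sb m (fun z => K (t, z) i) (C m * √ρ * Real.exp (-k * t))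
  sol : ∀ p : R4, -δ1 < p.1 → r2 p.2 < 16 → ∀ i, res (K p) (dfr K p) i = f p i
  supp : ∀ p : R4, 25 ≤ r2 p.2 ∨ |p.1| + 1 ≤ |p.2.1| → f p = 0
  src : ∀ t, -1 ≤ t → ∀ i, Sb n (fun z => f (t, z) i) (ε * Real.exp (-k * t))
  all : ∀ m, ∀ t ∈ Icc (-1 : ℝ) 1, ∀ i, Sb m (fun z => f (t, z) i) (C m)

/-- SRC. -/
def SRC : Prop :=
  ∀ p0 k ε0 δ1 C K kd, IsKF p0 k ε0 δ1 C K kd → ∃ C', ∀ n, ∀ η > 0, ∃ ε > 0,
    ∀ p ∈ Metric.ball p0 ε, ∀ q ∈ Metric.ball p0 ε, ∀ t ≥ 0, ∀ σ,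
      IsBS k (Real.exp (-k * t)) δ1 η n C' (KI (K p t σ) (K q t σ)) (FI (K p t σ) (K q t σ))

/-- NEAR2: data near the reference give small chart data. -/
def NEAR2 : Prop :=
  ∀ p0 k ε0 δ1 C K kd (s T : ℝ) (m : ℕ), IsKF p0 k ε0 δ1 C K kd → 0 ≤ s → ∀ η > 0,
    ∃ η' > 0, ∃ ε > 0, ∀ p ∈ Metric.ball p0 ε, ∀ q ∈ Metric.ball p0 ε, ∀ t ∈ Icc 0 T, ∀ d,
      IsDat (mix (kd p t) (kd q t)) s d →
      pm s (m + 2) d (mix (kd p t) (kd q t)) < ENNReal.ofReal η' → ∀ σ,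
        IsInit (Ud d σ) ∧ DatB s m η (wd (KI (K p t σ) (K q t σ)) (Ud d σ))

/-- The source cut off in x. -/
def cut (n : ℕ) (f : R4 → Ix → ℝ) (p : R4) : Ix → ℝ := cx n p.2.1 • f p

/-! ### The long time theorem with source -/

structure Fam2 (k : ℝ) (a : ℝ → ℝ) (ε δ cb : ℝ) (K f : R4 → Ix → ℝ) (w0 : X3 → Ix → ℝ)
    (w : ℕ → R4 → Ix → ℝ) : Prop where
  smooth : ∀ n i, ContDiff ℝ ∞ (cmp (w n) i)
  init : ∀ n z, w n (0, z) = cx n z.1 • w0 z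
  eqn : ∀ n (p : R4), -δ ≤ p.1 → EqnS K (cut n f) (w n) p
  back : ∀ n (p : R4), p.1 ∈ Icc (-δ) 0 → ∀ i, |w n p i| ≤ cb
  out : ∀ n (p : R4), 0 ≤ p.1 → Out k a ε 4 (w n) p
  supp : ∀ n T, ∃ w', SolS K (cut n f) w' T ∧ ∀ p : R4, p.1 < T + 1 → w' p = w n p

def SOLVE2 : Prop :=
  ∀ (k s : ℝ) (a A : ℝ → ℝ) (A0 : ℝ) (C : ℕ → ℝ), 0 < k → 1 < s → Wt k a A A0 →
    ContDiff ℝ ∞ a → (∀ y, (1 + y ^ 2) ^ (-s / 2) ≤ a y) → ∃ μ > 0, ∃ cb, ∀ ε' > 0, ∃ ε > 0,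
      ∀ δ ∈ Ioc 0 μ, ∀ ρ ∈ Ioc 0 μ, ∀ δ1 K f, IsBS k ρ δ1 ε 12 C K f → ∀ w0, DatB s 9 ε w0 →
        ∃ w, Fam2 k a ε' δ cb K f w0 w

def GLUE2 : Prop :=
  ∀ k a ε δ cb K f w0 w, SmU K univ → Fam2 k a ε δ cb K f w0 w →
    ∀ (n : ℕ) (p : R4), -δ < p.1 → |p.1| + |p.2.1| < n → glue w p = w n p

def FULL2 : Prop :=
  ∀ (k : ℝ) (a A : ℝ → ℝ) (A0 cb : ℝ) (C : ℕ → ℝ), 0 < k → Wt k a A A0 →
    ∃ μ > 0, ∃ cb', ∀ ρ ∈ Ioc 0 μ, ∀ ε ∈ Ioc 0 μ, ∀ δ ∈ Ioc 0 μ, ∀ δ1 ε1 n K f u w, δ ≤ δ1 →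
      IsBS k ρ δ1 ε1 n C K f → IsInit u → Fam2 k a ε δ cb K f (wd K u) w →
      IsCh k a ε (C 5 * √ρ) δ cb' u (K + glue w)

/-- KICK2. The constant Λ is universal. -/
def KICK2 : Prop :=
  ∃ Λ : ℝ, ∀ (s κ : ℝ) (k k' : Dat), 1 < s → 0 < κ → Sta k → Sta k' → Wi k → Wi k' →
    ∀ d, IsDat (mix k k') s d → ∀ (σ b : Bool) (m : ℕ) (ε R0 : ℝ), 0 < ε →
      ∃ R ≥ R0, ∃ A ≥ Real.exp (-κ * R), ∃ d', IsDat (mix k k') s d' ∧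
        pm s m d' d < ENNReal.ofReal ε ∧ IsKick b Λ R A (Ud d σ) (Ud d' σ)

def Blow2 (k : ℝ) (a : ℝ → ℝ) (ε δ cb : ℝ) (K f : Bool → R4 → Ix → ℝ) (d : Dat) : Prop :=
  ∀ σ w, Fam2 k a ε δ cb (K σ) (f σ) (wd (K σ) (Ud d σ)) w →
    BlowR k (K σ + glue w) ∧ BlowL k (K σ + glue w)

def GEN2 : Prop :=
  ∀ (k s : ℝ) (w A : ℝ → ℝ) (A0 c : ℝ) (C : ℕ → ℝ), 0 < k → 1 < s → Wt k w A A0 →
    ContDiff ℝ ∞ w → (∀ y, (1 + y ^ 2) ^ (-s / 2) ≤ w y ∧ w y ≤ c * (1 + y ^ 2) ^ (-s / 2)) →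
    ∃ μ > 0, ∀ ρ ∈ Ioc 0 μ, ∀ ε ∈ Ioc 0 μ, ∀ δ cb δ1 ε1 n (K f : Bool → R4 → Ix → ℝ) (k1 k2 : Dat),
      0 < δ → (∀ σ, IsBS k ρ δ1 ε1 n C (K σ) (f σ)) → Sta k1 → Sta k2 → Wi k1 → Wi k2 →
      ∀ O : Set (DS (mix k1 k2) s), IsOpen O →
        (∀ d ∈ O, ∀ σ, ∃ W, Fam2 k w ε δ cb (K σ) (f σ) (wd (K σ) (Ud d.1 σ)) W) →
        IsMeagre {d : O | ¬ Blow2 k w ε δ cb K f d.1.1}

/-- NEMP: data with different ends exist. -/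
def NEMP : Prop :=
  ∀ p0 k ε0 δ1 C K kd (s t : ℝ) (m : ℕ), IsKF p0 k ε0 δ1 C K kd → 0 ≤ s → 0 ≤ t → Wi (kd p0 t) →
    ∀ η > 0, ∃ ε > 0, ∀ p ∈ Metric.ball p0 ε, ∀ q ∈ Metric.ball p0 ε,
      (Bl (mix (kd p t) (kd q t)) s m η).Nonempty

/-! ### The short steps -/

/-- Weighted pointwise bounds. -/
def WB (s : ℝ) (m : ℕ) (c : ℝ) (w : X3 → Ix → ℝ) : Prop :=
  ∀ i (α : List (Fin 3)), α.length ≤ m → ∀ z, |pdl α (cmp w i) z| ≤ c * (1 + z.1 ^ 2) ^ (-s / 2)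

structure Fam0 (δ cb : ℝ) (K f : R4 → Ix → ℝ) (w0 : X3 → Ix → ℝ) (w : ℕ → R4 → Ix → ℝ) :
    Prop where
  smooth : ∀ n i, ContDiff ℝ ∞ (cmp (w n) i) ∧ HasCompactSupport (cmp (w n) i)
  init : ∀ n z, w n (0, z) = cx n z.1 • w0 z
  eqn : ∀ n (p : R4), p.1 ∈ Icc (-δ) δ → EqnS K (cut n f) (w n) p
  bd : ∀ n t, t ∈ Icc (-δ) δ → ∀ i, Sb 5 (cmp (sl (w n) t) i) cb

/-- Smooth with support in r2 ≤ 25. -/
def Su (w : X3 → Ix → ℝ) : Prop := (∀ i, ContDiff ℝ ∞ (cmp w i)) ∧ ∀ z, 25 ≤ r2 z → w z = 0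

/-- SHORT: existence, bounds of all orders and Lipschitz dependence for short times. -/
def SHORT : Prop :=
  ∀ (s : ℝ) (C : ℕ → ℝ), 1 < s → ∃ δ > 0, δ ≤ 1 ∧ ∃ (cb : ℝ) (F : ℕ → ℝ → ℝ),
    ∀ K f : R4 → Ix → ℝ, SmU K univ → SmU f univ →
      (∀ m, ∀ t ∈ Icc (-1 : ℝ) 1, ∀ i, Sb m (fun z => K (t, z) i) (C m) ∧
        Sb m (fun z => f (t, z) i) (C m)) →
      (∀ p : R4, 25 ≤ r2 p.2 ∨ |p.1| + 1 ≤ |p.2.1| → f p = 0) →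
      (∀ w0, Su w0 → WB s 12 1 w0 → ∃ w, Fam0 δ cb K f w0 w) ∧
      (∀ w0 w, Su w0 → Fam0 δ cb K f w0 w → ∀ m B c, 0 ≤ c → c ≤ B → WB s (m + 3) c w0 →
        (∀ t ∈ Icc (-1 : ℝ) 1, WB s (m + 3) c (sl f t)) →
        ∀ n, ∀ t ∈ Icc (-δ) δ, WB s m (F m B * c) (sl (w n) t)) ∧
      ∀ w0 w w0' w', Su w0 → Su w0' → Fam0 δ cb K f w0 w → Fam0 δ cb K f w0' w' → ∀ m B c,
        0 ≤ c → WB s (m + 7) B w0 → WB s (m + 7) B w0' →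
        (∀ t ∈ Icc (-1 : ℝ) 1, WB s (m + 7) B (sl f t)) → WB s (m + 3) c (w0 - w0') →
        ∀ n, ∀ t ∈ Icc (-δ) δ, WB s m (F m B * c) (sl (w n - w' n) t)

/-- A solution of all structure equations in both charts on the strip a < τ < b. -/
structure Strip (a b : ℝ) (U : Bool → R4 → Ix → ℝ) : Prop where
  sm : ∀ σ, SmU (U σ) {p | p.1 ∈ Ioo a b ∧ rr p < 4}
  full : ∀ σ (p : R4), p.1 ∈ Ioo a b → rr p < 4 →
    0 < U σ p Ix.O ∧ detP (U σ p) ≠ 0 ∧ Full (U σ p) (dfr (U σ) p)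
  compat : ∀ σ (p : R4), p.1 ∈ Ioo a b → rr p < 4 → 1 / 4 < rr p → ∀ v w,
    met (U σ) p v w = met (U (!σ)) (flip p) (fderiv ℝ flip p v) (fderiv ℝ flip p w)

/-- U induces the data d at the time t. -/
def IndAt (U : Bool → R4 → Ix → ℝ) (t : ℝ) (d : Dat) : Prop :=
  ∀ σ z, r2 z < 4 → P354J.Ind (U σ (t, z)) (pb σ d.h z) (pb σ d.K z)

/-- STRIP. -/
def STRIP : Prop :=
  ∀ cb : ℝ, ∃ μ > 0, ∀ δ ∈ Ioc 0 μ, ∀ δ' (d : Dat) (K f : Bool → R4 → Ix → ℝ)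
    (w : Bool → ℕ → R4 → Ix → ℝ), δ ≤ δ' → PDy d → (∀ σ, SmU (K σ) univ ∧
      (∀ p : R4, |p.1| ≤ δ → ∀ i, |K σ p i| ≤ cb) ∧
      (∀ p : R4, |p.1| < δ → r2 p.2 < 16 → ∀ i, res (K σ p) (dfr (K σ) p) i = f σ p i) ∧
      IsInit (Ud d σ) ∧ Fam0 δ' cb (K σ) (f σ) (wd (K σ) (Ud d σ)) (w σ)) →
    Strip (-δ) δ (fun σ => K σ + glue (w σ)) ∧ IndAt (fun σ => K σ + glue (w σ)) 0 d ∧
      ∀ σ (n : ℕ) (p : R4), |p.1| < δ → |p.1| + |p.2.1| < n → glue (w σ) p = w σ n p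

/-- EXTR: the data induced at the time t. -/
def EXTR : Prop :=
  ∀ a b U, Strip a b U → ∀ t ∈ Ioo a b, ∃ d, PDy d ∧ Con d ∧ IndAt U t d

/-- d' is the evolution of d by the time t in the double null gauge. -/
def Ev (t : ℝ) (d d' : Dat) : Prop :=
  ∃ a b U, a < min 0 t ∧ max 0 t < b ∧ Strip a b U ∧ IndAt U 0 d ∧ IndAt U t d'

/-- UNQ. -/
def UNQ : Prop := ∀ t d d' d'', PDy d → Ev t d d' → Ev t d d'' → Eqv d' d''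

/-- The strong form of Good. -/
def GG (d : Dat) : Prop := ∃ δ U, Glob d δ U ∧ NoExt (sp δ (coef U))

/-- GOODT. -/
def GOODT : Prop := ∀ t d d', 0 ≤ t → PDy d' → Ev t d d' → GG d' → GG d

/-- STEP. -/
def STEP : Prop :=
  ∀ p0 k ε0 δ1 C K kd (s T : ℝ), IsKF p0 k ε0 δ1 C K kd → 1 < s → ∃ δ > 0, ∀ m1, ∀ η1 > 0,
    ∃ m0, ∃ η0 > 0, ∃ ε > 0, ∀ p ∈ Metric.ball p0 ε, ∀ q ∈ Metric.ball p0 ε, ∀ t ∈ Icc 0 T,
      ∀ t' ∈ Icc 0 T, |t' - t| ≤ δ →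
        ∃ S : Bl (mix (kd p t) (kd q t)) s m0 η0 → DS (mix (kd p t') (kd q t')) s,
          Continuous S ∧ ∀ d, S d ∈ Bl (mix (kd p t') (kd q t')) s m1 η1 ∧ Ev (t' - t) d.1.1 (S d).1

end Vale.Agent.P354I
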