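import Vale.Agent.P354I.Iface
import Vale.Agent.P354V.Main
import Vale.Agent.P354T.Baire
import Vale.Agent.P354.Bdl.B5

/-!
The assembly of the theorem from the blocks.
-/

open scoped ContDiff
open MeasureTheory Set Filter Topology

namespace Vale.Agent.P354I

open Vale.Agent.P354n (R4)
open Vale.Agent.P354C (Ix)
open Vale.Agent.P354J (Ud PDy)
open Vale.Agent.P354P (coef sp jX)
open Vale.Agent.P354R (kap)

lemma kap_pos {M a : ℝ} (ha : a ≠ 0) (hM : |a| < M) : 0 < kap M a := by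
  have h1 : 0 < M ^ 2 - a ^ 2 := by
    have := sq_lt_sq' (by linarith [abs_nonneg a, neg_abs_le a]) (lt_of_le_of_lt (le_abs_self a) hM)
    linarith
  have h2 := Real.sqrt_pos.2 h1
  unfold kap P354R.rp P354R.rm
  have : 0 < a ^ 2 := by positivity
  exact div_pos (by linarith) (by positivity)

lemma sqrt_small (c μ : ℝ) (hμ : 0 < μ) : ∃ ν > 0, ∀ ρ ∈ Ioo 0 ν, c * √ρ ≤ μ := by
  refine ⟨(μ / (|c| + 1)) ^ 2, by positivity, fun ρ h => ?_⟩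
  have h1 : √ρ ≤ μ / (|c| + 1) := Real.sqrt_le_iff.2 ⟨by positivity, h.2.le⟩
  have h2 : c * √ρ ≤ (|c| + 1) * √ρ :=
    mul_le_mul_of_nonneg_right (by linarith [le_abs_self c]) (Real.sqrt_nonneg _)
  have h3 : (|c| + 1) * √ρ ≤ (|c| + 1) * (μ / (|c| + 1)) := by gcongr
  rw [mul_div_cancel₀ _ (by positivity)] at h3
  linarith

lemma IsBK.nonneg {k ρ : ℝ} {C : ℕ → ℝ} {K : R4 → Ix → ℝ} (h : IsBK k ρ C K) (m : ℕ) :
    0 ≤ C m * √ρ := by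
  have := (norm_nonneg _).trans (h.bound m 0 (by norm_num) Ix.O [] (Nat.zero_le _) 0)
  simpa using this

theorem main_of (hW : P354A.WT) (hB : BK) (hN : NEAR) (hS : SOLVE) (hF : FULL) (hD : DEVEL)
    (hA : ANA) (h7 : P354L.B7) (hG : GEN) : MAIN := by
  intro M a s ha hM hs
  have hk := kap_pos ha hM
  obtain ⟨w, A, A0, c, hw, hws, hwc⟩ := hW (kap M a) s hk hs
  obtain ⟨μ1, h1, C, hB⟩ := hB M a ha hM
  obtain ⟨μ2, h2, cb, hS⟩ := hS (kap M a) s w A A0 C hk hs hw fun y => (hwc y).1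
  obtain ⟨μ3, h3, cb', hF⟩ := hF (kap M a) w A A0 cb C hk hw
  obtain ⟨μ4, h4, hD⟩ := hD (kap M a) w A A0 cb' hk hw
  obtain ⟨κ, hκ, hA⟩ := hA (kap M a) w A A0 hk hw
  obtain ⟨μ5, h5, hG⟩ := hG M a s w A A0 c C ha hM hs hw hws hwc
  obtain ⟨μ6, h6, hq⟩ := sqrt_small (C 5) μ4 h4
  obtain ⟨μ, h0, l1, l2, l3, l4, l5, l6⟩ :
      ∃ μ > 0, μ ≤ μ1 ∧ μ ≤ μ2 ∧ μ ≤ μ3 ∧ μ ≤ μ4 ∧ μ ≤ μ5 ∧ μ ≤ μ6 :=
    ⟨min μ1 (min μ2 (min μ3 (min μ4 (min μ5 μ6)))), by positivity, by simp, by simp, by simp,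
      by simp, by simp, by simp⟩
  refine ⟨μ, h0, fun r0 hr => ?_⟩
  obtain ⟨ρ, rfl⟩ : ∃ ρ, r0 = rm M a + ρ := ⟨r0 - rm M a, by ring⟩
  have hρ : 0 < ρ := by linarith [hr.1]
  have hρ' : ρ < μ := by linarith [hr.2]
  obtain ⟨K, hK⟩ := hB ρ ⟨hρ, by linarith⟩
  obtain ⟨ε, hε, hS⟩ := hS μ h0
  obtain ⟨m1, η1, e1, hN⟩ := hN M a s ρ C K 9 ha hM hs hρ hK ε hε
  obtain ⟨m2, η2, e2, hG⟩ := hG ρ ⟨hρ, by linarith⟩ K hK μ ⟨h0, l5⟩ μ cb h0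
  let d0 : Dset M a (rm M a + ρ) s := ⟨_, hK.data s⟩
  let O := P354T.ball d0 (max m1 m2) (ENNReal.ofReal (min η1 η2))
  have hO : IsOpen O := P354T.isOpen_ball' _ _ _
  have hO1 : ∀ d ∈ O, pm s m1 d.1 (kerr M a (rm M a + ρ)) < ENNReal.ofReal η1 := fun d hd =>
    ((P354T.pm_mono s (le_max_left _ _) _ _).trans_lt hd).trans_le
      (ENNReal.ofReal_le_ofReal (min_le_left _ _))
  have hO2 : ∀ d ∈ O, pm s m2 d.1 (kerr M a (rm M a + ρ)) < ENNReal.ofReal η2 := fun d hd =>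
    ((P354T.pm_mono s (le_max_right _ _) _ _).trans_lt hd).trans_le
      (ENNReal.ofReal_le_ofReal (min_le_right _ _))
  have hE : ∀ d ∈ O, ∀ σ, ∃ W, Fam (kap M a) w μ μ cb (K σ) (wd (K σ) (Ud d.1 σ)) W :=
    fun d hd σ => hS μ ⟨h0, l2⟩ ρ ⟨hρ, by linarith⟩ _ (hK.bk σ) _ (hN d.1 d.2 (hO1 d hd) σ).2
  have h00 : ∃ d ∈ O, d.1 = kerr M a (rm M a + ρ) :=
    ⟨d0, P354T.mem_ball_self' _ _ (ENNReal.ofReal_pos.2 (lt_min e1 e2)), rfl⟩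
  have key : IsMeagre {d : O | ¬ Good d.1.1} := by
    refine IsMeagre.mono ?_ (hG O hO hO2 hE)
    intro d hd
    simp only [mem_ofPred_eq] at hd ⊢
    refine fun hb => hd ?_
    choose W hW using hE d.1 d.2
    have hI := fun σ => (hN d.1.1 d.1.2 (hO1 d.1 d.2) σ).1
    have hC : ∀ σ, IsCh (kap M a) w μ (C 5 * √ρ) μ cb' (Ud d.1.1 σ) (K σ + glue (W σ)) :=
      fun σ => hF ρ ⟨hρ, by linarith⟩ μ ⟨h0, l3⟩ μ ⟨h0, l3⟩ _ _ _ (hK.bk σ) (hI σ) (hW σ)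
    obtain ⟨k1, k2, k3⟩ := hD μ ⟨h0.le, l4⟩ _ ⟨(hK.bk true).nonneg 5, hq ρ ⟨hρ, by linarith⟩⟩ μ
      ⟨h0, l4⟩ d.1.1 (fun σ => K σ + glue (W σ)) ⟨d.1.2.smooth, d.1.2.pos⟩ hC
    choose al be hab using fun σ =>
      hA _ _ _ _ _ _ h0 (hI σ) (hC σ) (hb σ _ (hW σ)).1 (hb σ _ (hW σ)).2
    exact P354V.good_of k1 (((P354n.inext 2 le_rfl).1 _ k1.spacetime).2
      (h7 _ _ _ _ _ _ _ _ _ _ _ R4 al be k1.spacetime k2 k3 hκ hab))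
  exact ⟨hK.lt, O, hO, h00, key, P354T.dense_of_meagre (by linarith) hO h00 key⟩

end Vale.Agent.P354I
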