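import Vale.Agent.P354I.Tr2
import Vale.Agent.P354I.Asm

/-!
The assembly of the theorem of phase 2 from the blocks.
-/

open scoped ContDiff
open MeasureTheory Set Filter Topology

namespace Vale.Agent.P354I

open Vale.Agent.P354n (R4)
open Vale.Agent.P354C (Ix)
open Vale.Agent.P354J (Ud PDy)
open Vale.Agent.P354T (DSm pm_mono pm_tri pm_comm)
open Vale.Agent.P354P (coef sp jX COMPAT DEV)
open Vale.Agent.P354R (kap)
open Metric (ball ball_subset_ball)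

variable {p0 : P3} {k ε0 δ1 s : ℝ} {C : ℕ → ℝ} {K : P3 → ℝ → Bool → R4 → Ix → ℝ}
  {kd : P3 → ℝ → Dat}

lemma IsBS.nonneg {ρ ε : ℝ} {n : ℕ} {K f : R4 → Ix → ℝ} (h : IsBS k ρ δ1 ε n C K f) (m : ℕ) :
    0 ≤ C m * √ρ := by
  have := (norm_nonneg _).trans (h.bound m 0 (by norm_num) Ix.O [] (Nat.zero_le _) 0)
  simpa using this

lemma IsKF.dsm (h : IsKF p0 k ε0 δ1 C K kd) (hX : MIX) {p q : P3} (hp : p ∈ ball p0 ε0)
    (hq : q ∈ ball p0 ε0) {t : ℝ} (ht : 0 ≤ t) : DSm (mix (kd p t) (kd q t)) := by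
  obtain ⟨c, _, B, H⟩ := h.geo t 0
  obtain ⟨B', H'⟩ := hX.2.1 0 B
  exact (H' c _ _ (H p hp t ⟨ht, le_rfl⟩) (H q hq t ⟨ht, le_rfl⟩)).1.1

/-- The property holds generically near the family at the time t. -/
def PR (p0 : P3) (ε0 : ℝ) (kd : P3 → ℝ → Dat) (s t : ℝ) : Prop :=
  ∃ (m : ℕ) (η ε : ℝ), 0 < η ∧ 0 < ε ∧ ε ≤ ε0 ∧ ∀ p ∈ ball p0 ε, ∀ q ∈ ball p0 ε,
    MG GG (mix (kd p t) (kd q t)) s m η

/-- There are data near the family at the time t. -/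
def NE (p0 : P3) (kd : P3 → ℝ → Dat) (s t : ℝ) : Prop :=
  ∀ (m : ℕ), ∀ η > 0, ∃ ε > 0, ∀ p ∈ ball p0 ε, ∀ q ∈ ball p0 ε,
    (Bl (mix (kd p t) (kd q t)) s m η).Nonempty

theorem late (hW : P354A.WT) (hX : MIX) (hR : SRC) (hN : NEAR2) (hS : SOLVE2) (hF : FULL2)
    (hD : DEVEL) (hC : COMPAT) (hA : ANA) (h7 : P354L.B7) (hG : GEN2) (hE : NEMP)
    (h : IsKF p0 k ε0 δ1 C K kd) (hs : 1 < s) : ∃ T ≥ 0, PR p0 ε0 kd s T ∧ NE p0 kd s T := by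
  obtain ⟨hk, e0, d1, _⟩ := h.pos
  obtain ⟨T1, hT1⟩ := h.wit
  obtain ⟨w, A, A0, c, hw, hws, hwc⟩ := hW k s hk hs
  obtain ⟨C', hR⟩ := hR _ _ _ _ _ _ _ h
  obtain ⟨μ2, h2, cb, hS⟩ := hS k s w A A0 C' hk hs hw hws fun y => (hwc y).1
  obtain ⟨μ3, h3, cb', hF⟩ := hF k w A A0 cb C' hk hw
  obtain ⟨μ4, h4, hD⟩ := hD k w A A0 cb' hk hw
  obtain ⟨μ7, h7', hC⟩ := hC k w A A0 cb' hk hw
  obtain ⟨κ, hκ, hA⟩ := hA k w A A0 hk hw
  obtain ⟨μ5, h5, hG⟩ := hG k s w A A0 c C' hk hs hw hws hwc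
  obtain ⟨μ6, h6, hq⟩ := sqrt_small (C' 5) (min μ4 μ7) (lt_min h4 h7')
  obtain ⟨μ, h0, l1, l2, l3, l4, l5, l6, l7⟩ :
      ∃ μ > 0, μ ≤ δ1 ∧ μ ≤ μ2 ∧ μ ≤ μ3 ∧ μ ≤ μ4 ∧ μ ≤ μ5 ∧ μ ≤ μ6 ∧ μ ≤ μ7 :=
    ⟨min δ1 (min μ2 (min μ3 (min μ4 (min μ5 (min μ6 μ7))))), by positivity, by simp, by simp,
      by simp, by simp, by simp, by simp, by simp⟩
  obtain ⟨T, ⟨t0, t1⟩, hρ'⟩ : ∃ T, (0 ≤ T ∧ T1 ≤ T) ∧ Real.exp (-k * T) < μ := by
    have a1 : Tendsto (fun T : ℝ => Real.exp (-k * T)) atTop (𝓝 0) :=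
      Real.tendsto_exp_atBot.comp (tendsto_id.const_mul_atTop_of_neg (by linarith))
    exact (((eventually_ge_atTop 0).and (eventually_ge_atTop T1)).and
      (a1.eventually (gt_mem_nhds h0))).exists
  have hρ := Real.exp_pos (-k * T)
  refine ⟨T, t0, ?_, fun m η hη => hE _ _ _ _ _ _ _ s T m h (by linarith) t0
    (hT1 _ (Metric.mem_ball_self e0) T t1) η hη⟩
  obtain ⟨ε, hε, hS⟩ := hS μ h0
  obtain ⟨εa, ea, hR⟩ := hR 12 ε hε
  obtain ⟨η, hη, εb, eb, hN⟩ := hN _ _ _ _ _ _ _ s T 9 h (by linarith) ε hε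
  refine ⟨11, η, min ε0 (min εa εb), hη, by positivity, min_le_left _ _, fun p hp q hq' => ?_⟩
  have m0 : ball p0 (min ε0 (min εa εb)) ⊆ ball p0 ε0 := ball_subset_ball (by simp)
  have ma : ball p0 (min ε0 (min εa εb)) ⊆ ball p0 εa := ball_subset_ball (by simp)
  have mb : ball p0 (min ε0 (min εa εb)) ⊆ ball p0 εb := ball_subset_ball (by simp)
  have hB := hR p (ma hp) q (ma hq') T t0
  have hN := fun d : Bl (mix (kd p T) (kd q T)) s 11 η =>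
    hN p (mb hp) q (mb hq') T ⟨t0, le_rfl⟩ d.1.1 d.1.2 d.2
  have hE : ∀ d ∈ Bl (mix (kd p T) (kd q T)) s 11 η, ∀ σ, ∃ W, Fam2 k w μ μ cb
      (KI (K p T σ) (K q T σ)) (FI (K p T σ) (K q T σ))
      (wd (KI (K p T σ) (K q T σ)) (Ud d.1 σ)) W := fun d hd σ =>
    hS μ ⟨h0, l2⟩ _ ⟨hρ, by linarith⟩ _ _ _ (hB σ) _ (hN ⟨d, hd⟩ σ).2
  refine IsMeagre.mono ?_ (hG _ ⟨hρ, by linarith⟩ μ ⟨h0, l5⟩ μ cb δ1 ε 12
    (fun σ => KI (K p T σ) (K q T σ)) (fun σ => FI (K p T σ) (K q T σ)) _ _ h0 hB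
    (h.sta p (m0 hp) T t0).1 (h.sta q (m0 hq') T t0).1 (hT1 p (m0 hp) T t1) (hT1 q (m0 hq') T t1)
    _ (P354T2.isOpen_Bl (h.dsm hX (m0 hp) (m0 hq') t0) 11 η) hE)
  intro d hd
  simp only [mem_ofPred_eq] at hd ⊢
  refine fun hb => hd ?_
  choose W hW using hE d.1 d.2
  have hI := fun σ => (hN d σ).1
  have hH : ∀ σ, IsCh k w μ (C' 5 * √(Real.exp (-k * T))) μ cb' (Ud d.1.1 σ)
      (KI (K p T σ) (K q T σ) + glue (W σ)) := fun σ =>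
    hF _ ⟨hρ, by linarith⟩ μ ⟨h0, l3⟩ μ ⟨h0, l3⟩ _ _ _ _ _ _ _ l1 (hB σ) (hI σ) (hW σ)
  have q0 := (hB true).nonneg 5
  have q1 := le_min_iff.1 (hq _ ⟨hρ, by linarith⟩)
  obtain ⟨k1, k2, k3⟩ := hD μ ⟨h0.le, l4⟩ _ ⟨q0, q1.1⟩ μ ⟨h0, l4⟩ d.1.1
    (fun σ => KI (K p T σ) (K q T σ) + glue (W σ)) d.1.2.pdy hH
  choose al be hab using fun σ =>
    hA _ _ _ _ _ _ h0 (hI σ) (hH σ) (hb σ _ (hW σ)).1 (hb σ _ (hW σ)).2
  exact ⟨μ, _, hC μ ⟨h0.le, l7⟩ _ ⟨q0, q1.2⟩ μ ⟨h0, l7⟩ d.1.1 _ d.1.2.pdy hH,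
    ((P354n.inext 2 le_rfl).1 _ k1.spacetime).2
      (h7 _ _ _ _ _ _ _ _ _ _ _ R4 al be k1.spacetime k2 k3 hκ hab)⟩

theorem early (hX : MIX) (hS : STEP) (hU : UNQ) (hG : GOODT) (h : IsKF p0 k ε0 δ1 C K kd)
    (hs : 1 < s) {T : ℝ} (t0 : 0 ≤ T) (H : PR p0 ε0 kd s T ∧ NE p0 kd s T) :
    PR p0 ε0 kd s 0 ∧ NE p0 kd s 0 := by
  obtain ⟨δ, d0, hS⟩ := hS _ _ _ _ _ _ _ s T h hs
  have key : ∀ n : ℕ, ∀ t ∈ Icc 0 T, T - t ≤ n * δ → PR p0 ε0 kd s t ∧ NE p0 kd s t := by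
    intro n
    induction n with
    | zero =>
      intro t ht h1
      obtain rfl : t = T := le_antisymm ht.2 (by simpa using h1)
      exact H
    | succ n ih =>
      intro t ht h1
      have a1 : t ≤ min (t + δ) T := le_min (by linarith) ht.2
      have a2 : min (t + δ) T ≤ t + δ := min_le_left _ _
      have a3 : min (t + δ) T ∈ Icc 0 T := ⟨ht.1.trans a1, min_le_right _ _⟩
      obtain ⟨⟨m', η', ε', e1, e2, e3, H1⟩, H2⟩ := ih _ a3 (by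
        push_cast at h1
        rcases min_choice (t + δ) T with e | e <;> rw [e]
        · linarith
        · rw [sub_self]
          positivity)
      generalize min (t + δ) T = t' at a1 a2 a3 H1 H2
      have b1 : |t' - t| ≤ δ := abs_le.2 ⟨by linarith, by linarith⟩
      have b2 : |t - t'| ≤ δ := abs_sub_comm t t' ▸ b1
      refine ⟨?_, fun m η hη => ?_⟩
      · obtain ⟨mb, ηb, eb, εb, fb, Sb⟩ := hS 0 1 one_pos
        obtain ⟨m, η, e, ε, f, Sf⟩ := hS (max m' mb) (min η' ηb) (lt_min e1 eb)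
        refine ⟨m, η, min ε' (min εb ε), e, by positivity, (min_le_left _ _).trans e3,
          fun p hp q hq => ?_⟩
        have m1 : ball p0 (min ε' (min εb ε)) ⊆ ball p0 ε' := ball_subset_ball (by simp)
        have m2 : ball p0 (min ε' (min εb ε)) ⊆ ball p0 εb := ball_subset_ball (by simp)
        have m3 : ball p0 (min ε' (min εb ε)) ⊆ ball p0 ε := ball_subset_ball (by simp)
        have m0 := m1.trans (ball_subset_ball e3)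
        obtain ⟨S, c1, hS1⟩ := Sf p (m3 hp) q (m3 hq) t ht t' a3 b1
        obtain ⟨S', c2, hS2⟩ := Sb p (m2 hp) q (m2 hq) t' a3 t ht b2
        have sub := Bl_mono (k := mix (kd p t') (kd q t')) (s := s) (le_max_right m' mb)
          (min_le_right η' ηb)
        refine transfer (h.dsm hX (m0 hp) (m0 hq) ht.1) S (fun x => (hS1 x).1)
          (fun y => S' (inclusion sub y)) c1 (c2.comp (continuous_inclusion sub))
          (fun x => ?_) (fun y hy => ?_)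
          (fun x => hG _ _ _ (by linarith) (S x).2.pdy (hS1 x).2)
          ((H1 p (m1 hp) q (m1 hq)).mono (h.dsm hX (m0 hp) (m0 hq) a3.1) (le_max_left _ _)
            (min_le_left _ _))
        · have := (hS1 x).2.symm
          rw [neg_sub] at this
          exact hU _ _ _ _ (S x).2.pdy (hS2 (inclusion sub ⟨S x, (hS1 x).1⟩)).2 this
        · have := (hS2 (inclusion sub y)).2.symm
          rw [neg_sub] at this
          exact hU _ _ _ _ (S' _).2.pdy (hS1 ⟨_, hy⟩).2 this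
      · obtain ⟨mb, ηb, eb, εb, fb, Sb⟩ := hS m η hη
        obtain ⟨ε, f, H2⟩ := H2 mb ηb eb
        refine ⟨min εb ε, by positivity, fun p hp q hq => ?_⟩
        have m2 : ball p0 (min εb ε) ⊆ ball p0 εb := ball_subset_ball (by simp)
        have m3 : ball p0 (min εb ε) ⊆ ball p0 ε := ball_subset_ball (by simp)
        obtain ⟨S', _, hS2⟩ := Sb p (m2 hp) q (m2 hq) t' a3 t ht b2
        obtain ⟨y, hy⟩ := H2 p (m3 hp) q (m3 hq)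
        exact ⟨_, (hS2 ⟨y, hy⟩).1⟩
  refine key ⌈T / δ⌉₊ 0 ⟨le_rfl, t0⟩ ?_
  rw [sub_zero, ← div_le_iff₀ d0]
  exact Nat.le_ceil _

lemma End.Near.mono {p : End} {M a r ε ε' : ℝ} (h : p.Near M a r ε) (e : ε ≤ ε') :
    p.Near M a r ε' :=
  ⟨h.1.trans_le e, h.2.1.trans_le e, h.2.2.1.trans_le e, h.2.2.2.1,
    fun i j => (h.2.2.2.2 i j).trans_le e⟩

lemma End.Near.mem {p : End} {M a r ε : ℝ} (h : p.Near M a r ε) :
    (p.M, p.a, p.r) ∈ ball (M, a, r) ε := by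
  simp only [Metric.mem_ball, Prod.dist_eq, Real.dist_eq, max_lt_iff]
  exact ⟨h.1, h.2.1, h.2.2.1⟩

theorem main2_of (hB : BK2) (hT : START) (hP : PULL) (hO : TOP2) (hX : MIX) (hV : DEV)
    (H : ∀ p0 k ε0 δ1 C K kd s, IsKF p0 k ε0 δ1 C K kd → 1 < s → PR p0 ε0 kd s 0 ∧ NE p0 kd s 0) :
    MAIN2 := by
  intro M a r0 s ha hM h1 h2 hs
  have s0 : 0 ≤ s := by linarith
  obtain ⟨ε0, δ1, C, K, kd, h⟩ := hB M a r0 ha hM h1 h2
  obtain ⟨⟨m, η', ε1, e1, f1, g1, H1⟩, H2⟩ := H _ _ _ _ _ _ _ s h hs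
  obtain ⟨B, c, c0, hT⟩ := hT M a r0 s _ _ _ _ _ ha hM h1 h2 s0 h
  choose L L0 hL using fun m => hP.2.1 B s m s0
  have l0 := L0 m
  obtain ⟨η, e, q1, q2⟩ : ∃ η > 0, L m * η ≤ η' / 2 ∧ η ≤ η' :=
    ⟨η' / (2 * (L m + 1)), by positivity, by
      rw [mul_div_assoc', div_le_div_iff₀ (by positivity) (by positivity)]
      nlinarith, div_le_self e1.le (by linarith)⟩
  obtain ⟨θ, e3, q3, q4⟩ : ∃ θ > 0, L m * (θ + θ) < η ∧ θ < η / 2 :=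
    ⟨η / (4 * (L m + 1)), by positivity, by
      rw [← add_div, mul_div_assoc', div_lt_iff₀ (by positivity)]
      nlinarith, by
      rw [div_lt_div_iff₀ (by positivity) (by positivity)]
      nlinarith⟩
  obtain ⟨ε2, f2, hT⟩ := hT m θ e3
  obtain ⟨ε3, f3, H2⟩ := H2 m θ e3
  refine ⟨m, η, min ε1 (min ε2 ε3), e, by positivity, fun p q hp hq => ?_⟩
  obtain ⟨k1, k2, ψ, ψ', hψ, k3, k4⟩ := hT p q (hp.mono (by simp)) (hq.mono (by simp))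
  have p1 := (hp.mono (min_le_left _ _)).mem
  have p2 := (hq.mono (min_le_left _ _)).mem
  have H1 := H1 _ p1 _ p2
  have k0 := h.dsm hX (ball_subset_ball g1 p1) (ball_subset_ball g1 p2) le_rfl
  obtain ⟨y0, hy0⟩ := H2 _ (hp.mono (by simp)).mem _ (hq.mono (by simp)).mem
  generalize mix (kd (p.M, p.a, p.r) 0) (kd (q.M, q.a, q.r) 0) = κ0 at *
  generalize mix p.dat q.dat = κ at *
  obtain ⟨k5, _, k6, _⟩ := hP.1 B ψ ψ' κ hψ k1
  have r1 : ∀ (d : DS κ s) n, pm s n (d.1.pull ψ) κ0 ≤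
      ENNReal.ofReal (L n) * pm s n d.1 κ + pm s n (κ.pull ψ) κ0 := fun d n =>
    (pm_tri s n (hP.1 B ψ ψ' _ hψ d.2.pdy).1.1 k5.1 k0).trans
      (add_le_add_left (hL n ψ _ _ hψ.l (P354T2.dsm d) k1.1) _)
  have r2 : ∀ (d : DS κ0 s) n, pm s n (d.1.pull ψ') κ ≤
      ENNReal.ofReal (L n) * (pm s n d.1 κ0 + pm s n (κ.pull ψ) κ0) := fun d n => by
    rw [← pm_congr (Eqv.rfl' _) k6, pm_comm s n (κ.pull ψ)]
    exact (hL n ψ' _ _ hψ.r (P354T2.dsm d) k5.1).trans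
      (mul_le_mul_right (pm_tri s n (P354T2.dsm d) k0 k5.1) _)
  let S : DS κ s → DS κ0 s := fun d => ⟨d.1.pull ψ, isDat_of (hP.1 B ψ ψ' _ hψ d.2.pdy).1
    ((hP.1 B ψ ψ' _ hψ d.2.pdy).2.1 d.2.con) fun n => (r1 d n).trans_lt (ENNReal.add_lt_top.2
      ⟨ENNReal.mul_lt_top ENNReal.ofReal_lt_top (d.2.finite n), k3 n⟩)⟩
  let S' : DS κ0 s → DS κ s := fun d => ⟨d.1.pull ψ', isDat_of (hP.1 B ψ' ψ _ hψ.symm d.2.pdy).1
    ((hP.1 B ψ' ψ _ hψ.symm d.2.pdy).2.1 d.2.con) fun n => (r2 d n).trans_lt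
      (ENNReal.mul_lt_top ENNReal.ofReal_lt_top (ENNReal.add_lt_top.2 ⟨d.2.finite n, k3 n⟩))⟩
  have hb : ∀ x : Bl κ s m η, S x ∈ Bl κ0 s m η' := fun x => by
    refine ((r1 x m).trans (add_le_add (mul_le_mul_right (le_of_lt x.2) _) k4)).trans_lt ?_
    rw [← ENNReal.ofReal_mul l0, ← ENNReal.ofReal_add (by positivity) e3.le]
    exact (ENNReal.ofReal_lt_ofReal_iff e1).2 (by linarith)
  have key : MG Good κ s m η := by
    refine transfer k1.1 (fun x => S x) hb (fun y => S' y) (cont_pull hP s0 hψ.l fun _ => rfl)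
      (cont_pull hP s0 hψ.r fun _ => rfl) (fun x => (hP.1 B ψ ψ' _ hψ x.1.2.pdy).2.2.1)
      (fun y _ => (hP.1 B ψ' ψ _ hψ.symm y.1.2.pdy).2.2.1) (fun x ⟨δ, U, u1, u2⟩ => ?_) H1
    exact P354V.good_of ((hP.1 B ψ ψ' _ hψ x.1.2.pdy).2.2.2 _ _ (hV _ _ _ u1).2) u2
  have hO' := P354T2.isOpen_Bl (s := s) k1.1 m η
  refine ⟨hO', ⟨S' y0, ?_⟩, key, (hO κ s c (by linarith) c0 k1 k2).2.2.2.2.2 _ hO' _ key⟩
  refine ((r2 y0 m).trans (mul_le_mul_right (add_le_add (le_of_lt hy0) k4) _)).trans_lt ?_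
  rw [← ENNReal.ofReal_add e3.le e3.le, ← ENNReal.ofReal_mul l0]
  exact (ENNReal.ofReal_lt_ofReal_iff e).2 q3

end Vale.Agent.P354I
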