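import Vale.Agent.P354I.Defs

open scoped ContDiff
open MeasureTheory Set Filter Topology Matrix

namespace Vale.Agent.P354I

/-- The parameters of an end: mass, rotation, radius of the slice, and a rotation of the axis. -/
structure End where
  M : ℝ
  a : ℝ
  r : ℝ
  R : Matrix (Fin 3) (Fin 3) ℝ

/-- R is orthogonal, and the parameters are ε-close to (M, a, r, identity). -/
def End.Near (p : End) (M a r ε : ℝ) : Prop :=
  |p.M - M| < ε ∧ |p.a - a| < ε ∧ |p.r - r| < ε ∧ p.Rᵀ * p.R = 1 ∧ ∀ i j, |(p.R - 1) i j| < ε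

/-- The Kerr data with the parameters of p, pulled back by the rotation y ↦ R y. -/
noncomputable def End.dat (p : End) : Dat where
  h y := p.Rᵀ * (kerr p.M p.a p.r).h (WithLp.toLp 2 (p.R *ᵥ y.ofLp)) * p.R
  K y := p.Rᵀ * (kerr p.M p.a p.r).K (WithLp.toLp 2 (p.R *ᵥ y.ofLp)) * p.R

/-- The pair of tensors which is k for t ≥ 1 and k' for t ≤ 0 (it need not solve the
constraints). -/
noncomputable def mix (k k' : Dat) : Dat where
  h y := Real.smoothTransition (Real.log ‖y‖) • k.h y +
    (1 - Real.smoothTransition (Real.log ‖y‖)) • k'.h y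
  K y := Real.smoothTransition (Real.log ‖y‖) • k.K y +
    (1 - Real.smoothTransition (Real.log ‖y‖)) • k'.K y

/-- Smooth data with Riemannian h and symmetric K, all p_m of the difference to k finite, which
solve the vacuum constraint equations. -/
structure IsDat (k : Dat) (s : ℝ) (d : Dat) : Prop where
  smooth : ∀ i j, ContDiffOn ℝ ∞ (fun y => d.h y i j) {0}ᶜ ∧
    ContDiffOn ℝ ∞ (fun y => d.K y i j) {0}ᶜ
  pos : ∀ y ≠ 0, (d.h y).PosDef ∧ (d.K y).IsSymm
  finite : ∀ m, pm s m d k < ⊤
  hamilton : ∀ y ≠ 0, d.scal y + d.trK y ^ 2 - d.sqK y = 0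
  momentum : ∀ y ≠ 0, ∀ j, d.divK j y - pd j d.trK y = 0

/-- The space of data asymptotic to k. -/
def DS (k : Dat) (s : ℝ) : Type := {d : Dat // IsDat k s d}

/-- The topology of all p_m of differences. -/
instance (k : Dat) (s : ℝ) : TopologicalSpace (DS k s) :=
  TopologicalSpace.generateFrom
    {S | ∃ (d : DS k s) (m : ℕ) (ε : ENNReal), S = {d' | pm s m d'.1 d.1 < ε}}

/-- The data whose p_m distance to k is less than η. -/
def Bl (k : Dat) (s : ℝ) (m : ℕ) (η : ℝ) : Set (DS k s) := {d | pm s m d.1 k < ENNReal.ofReal η}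

end Vale.Agent.P354I
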