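import Vale.Agent.P354I.Asm
import Vale.Agent.P354AY.Wt
import Vale.Agent.P354AY.Main
import Vale.Agent.P354R.BK
import Vale.Agent.P354IN.Main
import Vale.Agent.P354AE.Solve
import Vale.Agent.P354QF.Full
import Vale.Agent.P354C.Propag
import Vale.Agent.P354P.Main
import Vale.Agent.P354M.Main
import Vale.Agent.P354DG.Main
import Vale.Agent.P354J.Pull
import Vale.Agent.P354J.Lip
import Vale.Agent.P354KC.Ck
import Vale.Agent.P354KE.Ext
import Vale.Agent.P354KZ.Main
import Vale.Agent.P354K.XP
import Vale.Agent.P354KS.Main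
import Vale.Agent.P354S.Main
import Vale.Agent.P354KP.Main
import Vale.Agent.P354KD.Alg

namespace Vale.Agent.P354I

theorem sol : P354K.SOL := P354KS.spec (P354S.sol0 P354KP.poin P354K.lim P354K.sobw)

theorem corek : P354K.COREK := P354KC.ck P354KD.alg0 (P354KE.ext (P354KZ.corez P354K.xpk sol))

theorem main_of2 (h7 : P354L.B7) (hk : P354D.KICK) : MAIN :=
  main_of P354AY.wt (P354R.bk P354J.sl2) (P354IN.near P354J.sl2 P354J.lip)
    (P354AE.solve_of P354AY.yzin) (P354QF.full P354C.propag) P354P.devel_main P354M.ana h7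
    (P354DG.gen hk)

end Vale.Agent.P354I
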