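import Vale.Agent.P354I.Fin
import Vale.Agent.P354L.Main
import Vale.Agent.P354KK.Fin

namespace Vale.Agent.P354I

theorem main : MAIN := main_of2 P354L.b7 P354KK.kick_main

end Vale.Agent.P354I
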