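import Vale.Agent.P354I.Asm2
import Vale.Agent.P354I.Main
import Vale.Agent.P354M2.Lip
import Vale.Agent.P354M2.Mix
import Vale.Agent.P354N2.Near
import Vale.Agent.P354SR.Exist
import Vale.Agent.P354QF.Full2
import Vale.Agent.P354KK.Kick2
import Vale.Agent.P354DG.Main2
import Vale.Agent.P354K.Nemp
import Vale.Agent.P354RG.BK2
import Vale.Agent.P354ST.Main
import Vale.Agent.P354PU.Pull1
import Vale.Agent.P354SP.Main

namespace Vale.Agent.P354I

theorem main2 : MAIN2 :=
  main2_of P354RG.bk2 P354ST.start P354PU.pull P354T2.top2 P354M2.mixThm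
    (P354P.dev P354Q.vac P354J.ind P354JK.inv) fun _ _ _ _ _ _ _ _ h hs => by
      obtain ⟨T, t0, H⟩ := late P354AY.wt P354M2.mixThm P354SR.src (P354N2.near2 P354M2.mixThm)
        P354SR.solve2' P354QF.full2 P354P.devel_main
        (P354P.compat P354Q.vac P354Q.conv P354CU.uni P354J.sl1 P354J.sl2 P354J.dslThm P354J.uq
          P354J.fu P354J.ind) P354M.ana P354L.b7
        (P354DG.gen2 P354M2.mixThm P354M2.lip2 P354KK.kick2) P354K.nemp_main h hs
      exact early P354M2.mixThm P354SP.step P354GT.unq P354GT.goodt h hs t0 H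

end Vale.Agent.P354I
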