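import Vale.Agent.P354I.Core2
import Vale.Agent.P354T2.Main
import Vale.Agent.P354GT.Main

/-!
Transfer of meagre sets along maps which are invertible up to equality on the cylinder.
-/

open scoped ContDiff
open MeasureTheory Set Filter Topology

namespace Vale.Agent.P354I

open Vale.Agent.P354n (R4)
open Vale.Agent.P354C (Ix)
open Vale.Agent.P354J (PDy)
open Vale.Agent.P354T (DSm pm_mono pm_tri pm_comm wn_congr)
open Vale.Agent.P354P (rr fderiv_flip)
open Vale.Agent.P354GT (sf dfr_sf)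

lemma meagre_pre {Y Z : Type} [TopologicalSpace Y] [TopologicalSpace Z] {A : Set Y}
    (hA : IsOpen A) {F : A → Z} {G : Z → Y} (hF : Continuous F) (hG : Continuous G)
    (h1 : ∀ x, Inseparable (G (F x)) x.1) (h2 : ∀ z h, Inseparable (F ⟨G z, h⟩) z) {T : Set Z}
    (hT : IsMeagre T) : IsMeagre (F ⁻¹' T) := by
  have : Tendsto F (residual A) (residual Z) := by
    apply le_countableGenerate_iff_of_countableInterFilter.mpr
    rintro t ⟨ht, htd⟩
    refine residual_of_dense_open (ht.preimage hF) (dense_iff_inter_open.2 fun V hV ⟨x, hx⟩ => ?_)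
    have hV' : IsOpen (Subtype.val '' V) := hA.isOpenMap_subtype_val V hV
    obtain ⟨z, ⟨x', hx', e⟩, hz⟩ := dense_iff_inter_open.1 htd _ (hV'.preimage hG)
      ⟨F x, ((h1 x).mem_open_iff hV').2 ⟨x, hx, rfl⟩⟩
    obtain ⟨x', h⟩ := x'
    obtain rfl : x' = G z := e
    exact ⟨_, hx', ((h2 z h).mem_open_iff ht).2 hz⟩
  exact this hT

variable {k k' a a' b b' : Dat} {s η η' : ℝ} {m m' : ℕ}

lemma Eqv.rfl' (a : Dat) : Eqv a a := fun _ _ => ⟨rfl, rfl⟩

lemma pm_congr (h : Eqv a a') (h' : Eqv b b') : pm s m a b = pm s m a' b' := by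
  unfold pm
  refine Finset.sum_congr rfl fun i _ => Finset.sum_congr rfl fun j _ => ?_
  congr 1
  · exact wn_congr s m fun y hy => by rw [(h y hy).1, (h' y hy).1]
  · exact wn_congr s m fun y hy => by rw [(h y hy).2, (h' y hy).2]

lemma insep {d d' : DS k s} (h : Eqv d.1 d'.1) : Inseparable d d' := by
  ext S
  rw [P354T2.mem_nhds_iff_pm, P354T2.mem_nhds_iff_pm]
  simp only [fun (m : ℕ) (e : DS k s) => pm_congr (s := s) (m := m) (Eqv.rfl' e.1) h]

/-- P holds outside of a meagre subset of the ball. -/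
def MG (P : Dat → Prop) (k : Dat) (s : ℝ) (m : ℕ) (η : ℝ) : Prop :=
  IsMeagre {d : Bl k s m η | ¬ P d.1.1}

lemma Bl_mono (hm : m ≤ m') (hη : η' ≤ η) : Bl k s m' η' ⊆ Bl k s m η := fun _ h =>
  ((pm_mono s hm _ _).trans_lt h).trans_le (ENNReal.ofReal_le_ofReal hη)

lemma MG.mono {P : Dat → Prop} (h : MG P k s m η) (hk : DSm k) (hm : m ≤ m') (hη : η' ≤ η) :
    MG P k s m' η' :=
  h.preimage_of_isOpenMap (continuous_inclusion (Bl_mono hm hη))
    ((P354T2.isOpen_Bl hk m' η').isOpenMap_inclusion _)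

lemma transfer {P P' : Dat → Prop} (hk : DSm k) (S : Bl k s m η → DS k' s)
    (hb : ∀ x, S x ∈ Bl k' s m' η') (S' : Bl k' s m' η' → DS k s) (hS : Continuous S)
    (hS' : Continuous S') (h1 : ∀ x, Eqv (S' ⟨S x, hb x⟩).1 x.1.1)
    (h2 : ∀ y h, Eqv (S ⟨S' y, h⟩).1 y.1.1) (hP : ∀ x, P' (S x).1 → P x.1.1)
    (H : MG P' k' s m' η') : MG P k s m η := by
  have := meagre_pre (P354T2.isOpen_Bl hk m η) (F := fun x => (⟨S x, hb x⟩ : Bl k' s m' η'))
    (hS.subtype_mk _) hS' (fun x => insep (h1 x))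
    (fun y h => (IsInducing.subtypeVal.inseparable_iff).1 (insep (h2 y h))) H
  exact this.mono fun x hx h => hx (hP x h)

lemma Ev.symm {t : ℝ} {d d' : Dat} (h : Ev t d d') : Ev (-t) d' d := by
  obtain ⟨a, b, U, ha, hb, hS, h0, ht⟩ := h
  have a1 := lt_min_iff.1 ha
  have b1 := max_lt_iff.1 hb
  have e : ∀ p : R4, p.1 ∈ Ioo (a - t) (b - t) → p.1 - -t ∈ Ioo a b := fun p hp =>
    ⟨by linarith [hp.1], by linarith [hp.2]⟩
  refine ⟨a - t, b - t, sf (-t) U, lt_min (by linarith [a1.2]) (by linarith [a1.1]),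
    max_lt (by linarith [b1.2]) (by linarith [b1.1]), ⟨fun σ i => ?_, fun σ p h1 h2 => ?_,
      fun σ p h1 h2 h3 v w => ?_⟩, fun σ z hz => ?_, fun σ z hz => ?_⟩
  · exact (hS.sm σ i).comp (f := fun p : R4 => ((p.1 - -t, p.2) : R4)) (by fun_prop)
      fun p hp => ⟨e p hp.1, hp.2⟩
  · exact dfr_sf σ p ▸ hS.full σ (p.1 - -t, p.2) (e p h1) h2
  · have r : rr p ≠ 0 := (lt_trans (by norm_num) h3).ne'
    have := hS.compat σ (p.1 - -t, p.2) (e p h1) h2 h3 v w
    rw [fderiv_flip (y := (p.1 - -t, p.2)) r, fderiv_flip (y := (p.1 - -t, p.2)) r] at this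
    rw [fderiv_flip r, fderiv_flip r]
    exact this
  · simpa [sf] using ht σ z hz
  · simpa [sf] using h0 σ z hz

lemma IsDat.pdy {d : Dat} (h : IsDat k s d) : PDy d := ⟨h.smooth, h.pos⟩
lemma IsDat.con {d : Dat} (h : IsDat k s d) : Con d :=
  fun y hy => ⟨h.hamilton y hy, h.momentum y hy⟩
lemma isDat_of {d : Dat} (h : PDy d) (hc : Con d) (hf : ∀ m, pm s m d k < ⊤) : IsDat k s d :=
  ⟨h.1, h.2, hf, fun y hy => (hc y hy).1, fun y hy => (hc y hy).2⟩

lemma Cyl.symm {B : ℕ → ℝ} {ψ ψ' : X → X} (h : Cyl B ψ ψ') : Cyl B ψ' ψ :=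
  ⟨h.r, h.l, fun y hy => (h.inv y hy).symm⟩

lemma cont_pull (hP : PULL) (hs : 0 ≤ s) {B : ℕ → ℝ} {ψ : X → X} (hψ : Cy1 B ψ) {A : Set (DS k s)}
    {S : A → DS k' s} (h : ∀ x, (S x).1 = x.1.1.pull ψ) : Continuous S := by
  refine continuous_iff_continuousAt.2 fun x => P354T2.tendsto_iff_pm.2 fun m η hη => ?_
  obtain ⟨C, c0, hC⟩ := hP.2.1 B s m hs
  filter_upwards [P354T2.tendsto_iff_pm.1 (continuous_subtype_val.tendsto x) m (η / (C + 1))
    (by positivity)] with y hy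
  rw [h, h]
  refine (hC ψ _ _ hψ (P354T2.dsm y.1) (P354T2.dsm x.1)).trans ((mul_le_mul_right hy _).trans ?_)
  rw [← ENNReal.ofReal_mul c0]
  refine ENNReal.ofReal_le_ofReal ?_
  rw [mul_div_assoc', div_le_iff₀ (by positivity)]
  nlinarith

end Vale.Agent.P354I
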